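import Vale.Agent.Lib.P241.Sub.W3

/-! # LEAF W4: a commutator outside the cyclic group generated by `gW p ^ p`
Every element of `zpowers (gW p ^ p)` has a constant `left` function (by `gW_pow_p`; prove
`((⟨fun _ => c, 1⟩ : Wr p) ^ k).left = fun _ => c ^ k` for integers `k`, or use
`Subgroup.zpowers_le` / closure induction with the subgroup-like predicate
`∀ q q', z.left q = z.left q'` together with `z.right = 1`).
The commutator `xW * yW * xW⁻¹ * yW⁻¹` has `left` equal to `gen p` at `1` and `(gen p)⁻¹` at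
`gen p`; these differ because `p ≠ 2` (`gen p * gen p ≠ 1`, i.e. `(2 : ZMod p) ≠ 0`). -/

namespace Vale.Agent.Lib.P241

open Subgroup RegularWreathProduct

/-- the elements whose `left` function is constant -/
private def constSub (p : ℕ) : Subgroup (Wr p) where
  carrier := {z | ∀ q q', z.left q = z.left q'}
  mul_mem' := by
    intro a b ha hb q q'
    simp only [RegularWreathProduct.mul_left, Pi.mul_apply]
    rw [ha q q', hb (a.right⁻¹ * q) (a.right⁻¹ * q')]
  one_mem' := by
    intro q q'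
    rfl
  inv_mem' := by
    intro a ha q q'
    simp only [RegularWreathProduct.inv_left, Pi.inv_apply]
    rw [ha (a.right * q) (a.right * q')]

lemma comm_not_mem (p : ℕ) [hp : Fact p.Prime] (hodd : p ≠ 2) :
    xW p * yW p * (xW p)⁻¹ * (yW p)⁻¹ ∉ zpowers (gW p ^ p) := by
  intro hmem
  have hle : zpowers (gW p ^ p) ≤ constSub p := by
    rw [Subgroup.zpowers_le]
    intro q q'
    rw [gW_pow_p]
  have hc : (xW p * yW p * (xW p)⁻¹ * (yW p)⁻¹).left 1 =
      (xW p * yW p * (xW p)⁻¹ * (yW p)⁻¹).left (gen p) := hle hmem 1 (gen p)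
  have hg : gen p ≠ 1 := gen_ne_one p
  have hg' : (gen p)⁻¹ ≠ 1 := inv_ne_one.2 hg
  have h1 : (xW p * yW p * (xW p)⁻¹ * (yW p)⁻¹).left 1 = gen p := by
    simp [xW, yW, delta, hg]
  have h2 : (xW p * yW p * (xW p)⁻¹ * (yW p)⁻¹).left (gen p) = (gen p)⁻¹ := by
    simp [xW, yW, delta, hg]
  rw [h1, h2] at hc
  have h3 : gen p * gen p = 1 := by
    nth_rewrite 1 [hc]
    exact inv_mul_cancel _
  have h4 : ((1 : ZMod p) + 1) = 0 := by
    have := congrArg Multiplicative.toAdd h3
    simpa [gen] using this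
  have h5 : ((2 : ℕ) : ZMod p) = 0 := by
    push_cast
    rw [← h4]
    norm_num
  have h6 : p ∣ 2 := (ZMod.natCast_eq_zero_iff 2 p).1 h5
  have h7 : p = 2 := (Nat.prime_dvd_prime_iff_eq hp.out Nat.prime_two).1 h6
  exact hodd h7

end Vale.Agent.Lib.P241
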