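import Vale.Agent.Lib.P241.Sub.W2
import Vale.Agent.Lib.P241.Sub.W4

/-! # The example `C_p ≀ C_p`, `p` odd: `ℓ(G,1) = p`, `e(G,1) < p` -/

namespace Vale.Agent.Lib.P241

open Subgroup RegularWreathProduct

theorem card_baseGrp (p : ℕ) [hp : Fact p.Prime] : Nat.card ↥(baseGrp p) = p ^ p := by
  have : NeZero p := ⟨hp.out.ne_zero⟩
  have h := Subgroup.card_mul_index (baseGrp p)
  rw [baseGrp_index, card_Wr, pow_succ] at h
  exact Nat.eq_of_mul_eq_mul_right hp.out.pos h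

theorem wreath_values (p : ℕ) [hp : Fact p.Prime] (hodd : p ≠ 2) :
    chainLen (⊥ : Subgroup (Wr p)) = p ∧ elemRank p (⊥ : Subgroup (Wr p)) < p := by
  have : NeZero p := ⟨hp.out.ne_zero⟩
  have h1 := pow_chainLen_bot_eq (isPGroup_Wr p) (baseGrp_exp p) (baseGrp_index p) (gW_pow_p_ne p)
  rw [card_baseGrp] at h1
  have hl : chainLen (⊥ : Subgroup (Wr p)) = p := Nat.pow_right_injective hp.out.two_le h1
  have h2 := elemRank_bot_lt (isPGroup_Wr p) (baseGrp_exp p) (baseGrp_index p) (gW_pow_p_ne p)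
    (comm_not_mem p hodd)
  rw [hl] at h2
  exact ⟨hl, h2⟩

end Vale.Agent.Lib.P241
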