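import Vale.Agent.Lib.P241.Sub.S7
import Vale.Agent.Lib.P241.Sub.W5

/-! # Assembly: the subgroup lower bound -/

namespace Vale.Agent.Lib.P241

open Subgroup

variable {G : Type*} [Group G]

theorem chainLen_subgroupOf_le [Finite G] {p : ℕ} [hp : Fact p.Prime] (hG : IsPGroup p G)
    (H K : Subgroup G) : chainLen (H.subgroupOf K) ≤ chainLen H :=
  chainLen_le (chain_subgroupOf (chainLen_mem hG H) K)

theorem elemRank_subgroupOf_le [Finite G] {p : ℕ} [hp : Fact p.Prime] (hG : IsPGroup p G)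
    (H K : Subgroup G) : elemRank p (H.subgroupOf K) ≤ chainLen H :=
  (elemRank_le_chainLen (hG.to_subgroup K) _).trans (chainLen_subgroupOf_le hG H K)

theorem squeeze {p : ℕ} {H K : Subgroup G} (hHK : H ≤ K)
    (he : elemRank p (H.subgroupOf K) = chainLen H) (r : Subgroup G → ℕ)
    (hmono : ∀ L L' : Subgroup G, H ≤ L → L ≤ L' → r L ≤ r L')
    (hlow : ∀ L : Subgroup G, H ≤ L → elemRank p (H.subgroupOf L) ≤ r L)
    (hup : r ⊤ ≤ chainLen H) : r ⊤ = chainLen H := by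
  have h1 := hlow K hHK
  have h2 := hmono K ⊤ hHK le_top
  omega

/-- an elementary abelian subgroup `E`: `e(E,1) = log_p |E|` -/
theorem pow_elemRank_elemAb [Finite G] {p : ℕ} [hp : Fact p.Prime] {E : Subgroup G}
    (hcomm : ∀ x ∈ E, ∀ y ∈ E, x * y = y * x) (hE : ∀ x ∈ E, x ^ p = 1) :
    p ^ elemRank p ((⊥ : Subgroup G).subgroupOf E) = Nat.card ↥E := by
  have hexp : ∀ x : ↥E, x ^ p = 1 := by
    intro x
    apply Subtype.ext
    simpa using hE x.1 x.2
  rw [Subgroup.bot_subgroupOf]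
  have h1 := pow_chainLen_eq_index hexp (⊥ : Subgroup ↥E)
  have h2 : elemRank p (⊥ : Subgroup ↥E) = chainLen (⊥ : Subgroup ↥E) := by
    rw [elemRank_eq_chainLen_iff_exp hexp]
    intro x y
    have hxy : x * y = y * x := Subtype.ext (hcomm x.1 x.2 y.1 y.2)
    rw [hxy, Subgroup.mem_bot]
    group
  rw [h2, h1, Subgroup.index_bot]

theorem family [Finite G] {p : ℕ} [hp : Fact p.Prime] (hG : IsPGroup p G)
    {E : Subgroup G} (hcomm : ∀ x ∈ E, ∀ y ∈ E, x * y = y * x) (hE : ∀ x ∈ E, x ^ p = 1)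
    (hEi : E.index = p) {g : G} (hg : g ^ p ≠ 1) :
    elemRank p ((⊥ : Subgroup G).subgroupOf E) = chainLen (⊥ : Subgroup G) := by
  have h1 := pow_elemRank_elemAb hcomm hE
  have h2 := pow_chainLen_bot_eq hG hE hEi hg
  exact Nat.pow_right_injective hp.out.two_le (h1.trans h2.symm)

lemma baseGrp_comm (p : ℕ) : ∀ x ∈ baseGrp p, ∀ y ∈ baseGrp p, x * y = y * x := by
  intro x hx y hy
  have hx' : x.right = 1 := hx
  have hy' : y.right = 1 := hy
  ext q
  · simp [hx', hy', mul_comm]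
  · simp [hx', hy']

theorem wreath_base (p : ℕ) [hp : Fact p.Prime] :
    elemRank p ((⊥ : Subgroup (Wr p)).subgroupOf (baseGrp p)) = chainLen (⊥ : Subgroup (Wr p)) := by
  have : NeZero p := ⟨hp.out.ne_zero⟩
  exact family (isPGroup_Wr p) (baseGrp_comm p) (baseGrp_exp p) (baseGrp_index p) (gW_pow_p_ne p)

end Vale.Agent.Lib.P241
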