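import Vale.Agent.Lib.P241.ExpP

/-! # LEAF S1: one step of a chain, intersected with a subgroup `E` of exponent `p`
Plan. Let `Qt := ↥B ⧸ A.subgroupOf B` (finite, cyclic) and
`φ : ↥(B ⊓ E) →* Qt := (QuotientGroup.mk' _).comp (Subgroup.inclusion inf_le_left)`.
* every `y ∈ φ.range` has `y ^ p = 1`, so `Nat.card φ.range ≤ p` (`IsCyclic.card_pow_eq_one_le`);
* `φ.ker` is `(A ⊓ E).subgroupOf (B ⊓ E)`, so `Nat.card φ.ker = Nat.card ↥(A ⊓ E)`
  (`Subgroup.subgroupOfEquivOfLe`);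
* `Nat.card φ.ker * φ.ker.index = Nat.card ↥(B ⊓ E)` (`Subgroup.card_mul_index`) and
  `Subgroup.index_ker`. -/

namespace Vale.Agent.Lib.P241

open Subgroup

variable {G : Type*} [Group G]

lemma step_inf_card [Finite G] {p : ℕ} (hp : 0 < p) {E : Subgroup G} (hE : ∀ x ∈ E, x ^ p = 1)
    {A B : Subgroup G} (hAB : A ≤ B) (hn : (A.subgroupOf B).Normal)
    (hc : IsCyclic (↥B ⧸ A.subgroupOf B)) :
    Nat.card ↥(B ⊓ E) ≤ p * Nat.card ↥(A ⊓ E) := by
  classical
  let φ : ↥(B ⊓ E) →* (↥B ⧸ A.subgroupOf B) :=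
    (QuotientGroup.mk' (A.subgroupOf B)).comp (Subgroup.inclusion inf_le_left)
  have hrange : Nat.card φ.range ≤ p := by
    have : Fintype (↥B ⧸ A.subgroupOf B) := Fintype.ofFinite _
    have h1 := IsCyclic.card_pow_eq_one_le (α := ↥B ⧸ A.subgroupOf B) hp
    have hsub : (φ.range : Set (↥B ⧸ A.subgroupOf B)) ⊆
        ↑(Finset.univ.filter fun a : ↥B ⧸ A.subgroupOf B => a ^ p = 1) := by
      rintro _ ⟨x, rfl⟩
      have hx : x ^ p = 1 := Subtype.ext (by simpa using hE x.1 x.2.2)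
      have hx' : φ x ^ p = 1 := by rw [← map_pow, hx, map_one]
      simpa using hx'
    calc Nat.card φ.range = (φ.range : Set (↥B ⧸ A.subgroupOf B)).ncard := rfl
      _ ≤ (↑(Finset.univ.filter fun a : ↥B ⧸ A.subgroupOf B => a ^ p = 1) :
            Set (↥B ⧸ A.subgroupOf B)).ncard :=
          Set.ncard_le_ncard hsub (Finset.finite_toSet _)
      _ = (Finset.univ.filter fun a : ↥B ⧸ A.subgroupOf B => a ^ p = 1).card :=
          Set.ncard_coe_finset _
      _ ≤ p := h1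
  have hkereq : φ.ker = (A ⊓ E).subgroupOf (B ⊓ E) := by
    ext x
    rw [MonoidHom.mem_ker, Subgroup.mem_subgroupOf]
    have h1 : φ x = 1 ↔ (Subgroup.inclusion inf_le_left x : ↥B) ∈ A.subgroupOf B :=
      QuotientGroup.eq_one_iff _
    rw [h1, Subgroup.mem_subgroupOf, Subgroup.mem_inf]
    constructor
    · intro h
      exact ⟨h, x.2.2⟩
    · intro h
      exact h.1
  have hker : Nat.card φ.ker = Nat.card ↥(A ⊓ E) := by
    rw [hkereq]
    exact Nat.card_congr (Subgroup.subgroupOfEquivOfLe (inf_le_inf_right E hAB)).toEquiv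
  have hmul := φ.ker.card_mul_index
  rw [Subgroup.index_ker, hker] at hmul
  rw [← hmul, mul_comm]
  exact Nat.mul_le_mul_right _ hrange

end Vale.Agent.Lib.P241
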