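import Vale.Agent.Lib.P241.Sub.S1

/-! # S2: a chain from `H` of length `s` and a subgroup `E` of exponent `p`: `|E : E ∩ H| ≤ p ^ s` -/

namespace Vale.Agent.Lib.P241

open Subgroup

variable {G : Type*} [Group G]

lemma chain_inf_card [Finite G] {p : ℕ} (hp : 0 < p) {E : Subgroup G} (hE : ∀ x ∈ E, x ^ p = 1)
    {H : Subgroup G} {s : ℕ} (h : CyclicChain H s) :
    Nat.card ↥E ≤ p ^ s * Nat.card ↥(H ⊓ E) := by
  induction h with
  | top => simp
  | @step A B s hAB hn hc h ih =>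
    calc Nat.card ↥E ≤ p ^ s * Nat.card ↥(B ⊓ E) := ih
      _ ≤ p ^ s * (p * Nat.card ↥(A ⊓ E)) := Nat.mul_le_mul_left _ (step_inf_card hp hE hAB hn hc)
      _ = p ^ (s + 1) * Nat.card ↥(A ⊓ E) := by ring

end Vale.Agent.Lib.P241
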