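import Vale.Agent.Lib.P241.ExpP

/-! # LEAF S3: `ℓ(G,1) ≤ 1 + log_p |G : C|` for a cyclic subgroup `C = zpowers g`
Plan. `exists_chain_index hG (zpowers g)` gives `s` with `CyclicChain (zpowers g) s` and
`(zpowers g).index = p ^ s`, so `s = j` (`Nat.pow_right_injective`). One more step
`⊥ ≤ zpowers g` by `CyclicChain.step`: normality because `(⊥ : Subgroup G).subgroupOf _ = ⊥`
(`Subgroup.bot_subgroupOf`), cyclic quotient by `isCyclic_of_gen` (with `A = ⊥`, `B = zpowers g`).
Then `chainLen_le`. -/

namespace Vale.Agent.Lib.P241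

open Subgroup

variable {G : Type*} [Group G]

lemma chainLen_bot_le [Finite G] {p : ℕ} [hp : Fact p.Prime] (hG : IsPGroup p G) (g : G) {j : ℕ}
    (hj : (zpowers g).index = p ^ j) : chainLen (⊥ : Subgroup G) ≤ j + 1 := by
  obtain ⟨s, hs, hidx⟩ := exists_chain_index hG (zpowers g)
  have hsj : s = j := by
    rw [hj] at hidx
    exact (Nat.pow_right_injective hp.out.two_le hidx).symm
  subst hsj
  have hn : ((⊥ : Subgroup G).subgroupOf (zpowers g)).Normal := by
    rw [Subgroup.bot_subgroupOf]
    infer_instance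
  have hc : IsCyclic (↥(zpowers g) ⧸ (⊥ : Subgroup G).subgroupOf (zpowers g)) :=
    isCyclic_of_gen bot_le hn (mem_zpowers g) (by simp)
  exact chainLen_le (CyclicChain.step bot_le hn hc hs)

end Vale.Agent.Lib.P241
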