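import Vale.Agent.Lib.P241.Sub.S2
import Vale.Agent.Lib.P241.Sub.S3

/-! # LEAF S4: the family
`G` a finite `p`-group, `E ≤ G` of exponent `p` and index `p`, `g ∈ G` with `g ^ p ≠ 1`.
Then `p ^ ℓ(G,1) = |E|`.
Plan. `≥`: `chain_inf_card` with `H = ⊥`, `chainLen_mem`, `⊥ ⊓ E = ⊥`, `Subgroup.card_bot`.
`≤`: `Nat.card G = p ^ m` (`IsPGroup.iff_card`), `Nat.card (zpowers g) = p ^ a` with `2 ≤ a`
(otherwise `orderOf g ∣ p`, so `g ^ p = 1`; `Nat.card_zpowers`, `orderOf_dvd_iff_pow_eq_one`),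
`(zpowers g).index = p ^ (m - a)` from `Subgroup.card_mul_index`, so
`chainLen ⊥ ≤ m - a + 1 ≤ m - 1` by `chainLen_bot_le`, and `Nat.card E = p ^ (m - 1)` from
`Subgroup.card_mul_index E` and `E.index = p`. -/

namespace Vale.Agent.Lib.P241

open Subgroup

variable {G : Type*} [Group G]

theorem pow_chainLen_bot_eq [Finite G] {p : ℕ} [hp : Fact p.Prime] (hG : IsPGroup p G)
    {E : Subgroup G} (hE : ∀ x ∈ E, x ^ p = 1) (hEi : E.index = p) {g : G} (hg : g ^ p ≠ 1) :
    p ^ chainLen (⊥ : Subgroup G) = Nat.card ↥E := by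
  have hp1 : 1 < p := hp.out.one_lt
  have hp0 : 0 < p := hp.out.pos
  apply le_antisymm
  · obtain ⟨m, hm⟩ := IsPGroup.iff_card.mp hG
    obtain ⟨a, ha⟩ := IsPGroup.iff_card.mp (hG.to_subgroup (zpowers g))
    have ha2 : 2 ≤ a := by
      by_contra hcon
      apply hg
      rw [← orderOf_dvd_iff_pow_eq_one, ← Nat.card_zpowers, ha]
      have : a ≤ 1 := by omega
      calc p ^ a ∣ p ^ 1 := pow_dvd_pow p this
        _ = p := pow_one p
    have h1 := Subgroup.card_mul_index (zpowers g)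
    rw [ha, hm] at h1
    have ham : a ≤ m := by
      have : p ^ a ∣ p ^ m := ⟨_, h1.symm⟩
      exact (Nat.pow_dvd_pow_iff_le_right hp1).1 this
    have hidx : (zpowers g).index = p ^ (m - a) := by
      have h2 : p ^ a * p ^ (m - a) = p ^ m := by rw [← pow_add]; congr 1; omega
      exact Nat.eq_of_mul_eq_mul_left (pow_pos hp0 a) (h1.trans h2.symm)
    have hlen := chainLen_bot_le hG g hidx
    have h3 := Subgroup.card_mul_index E
    rw [hEi, hm] at h3
    have hEc : Nat.card ↥E = p ^ (m - 1) := by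
      have h4 : p ^ (m - 1) * p = p ^ m := by rw [← pow_succ]; congr 1; omega
      exact Nat.eq_of_mul_eq_mul_right hp0 (h3.trans h4.symm)
    rw [hEc]
    exact Nat.pow_le_pow_right hp0 (by omega)
  · have h := chain_inf_card hp0 hE (chainLen_mem hG (⊥ : Subgroup G))
    rw [bot_inf_eq, Subgroup.card_bot, mul_one] at h
    exact h

end Vale.Agent.Lib.P241
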