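import Vale.Agent.Lib.P241.Sub.S4

/-! # LEAF S5: in the family of S4 the listed lower bound `e(G,1)` is strictly smaller than `ℓ(G,1)`
as soon as some commutator lies outside the cyclic group generated by `g ^ p`.
Plan. `elemRank_mem hG ⊥` gives `N` with `IsElemQuot p ⊥ N`, `N.index = p ^ elemRank p ⊥`.
`N` contains `g ^ p` and the commutator `c`, so `zpowers (g ^ p) < N`. Both are `p`-groups:
`Nat.card (zpowers (g ^ p)) = p ^ b` with `1 ≤ b` (as `g ^ p ≠ 1`), `Nat.card N = p ^ a`, and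
`p ^ b < p ^ a` (`Subgroup.card_lt_card` or `Set.ncard_lt_ncard`), so `2 ≤ a`.
With `Nat.card G = p ^ m`: `N.index = p ^ (m - a)`, so `elemRank p ⊥ = m - a ≤ m - 2`, while
`p ^ chainLen ⊥ = Nat.card E = p ^ (m - 1)` by `pow_chainLen_bot_eq`. -/

namespace Vale.Agent.Lib.P241

open Subgroup

variable {G : Type*} [Group G]

theorem elemRank_bot_lt [Finite G] {p : ℕ} [hp : Fact p.Prime] (hG : IsPGroup p G)
    {E : Subgroup G} (hE : ∀ x ∈ E, x ^ p = 1) (hEi : E.index = p) {g : G} (hg : g ^ p ≠ 1)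
    {x y : G} (hxy : x * y * x⁻¹ * y⁻¹ ∉ zpowers (g ^ p)) :
    elemRank p (⊥ : Subgroup G) < chainLen (⊥ : Subgroup G) := by
  obtain ⟨N, ⟨_, _, hcomm, hpow⟩, hidx⟩ := elemRank_mem hG (⊥ : Subgroup G)
  have hp1 : 1 < p := hp.out.one_lt
  have hZN : zpowers (g ^ p) ≤ N := (zpowers_le).2 (hpow g)
  have hne : Nat.card ↥(zpowers (g ^ p)) ≠ Nat.card ↥N := by
    intro h
    have := Subgroup.eq_of_le_of_card_ge hZN h.ge
    exact hxy (this ▸ hcomm x y)
  have hle : Nat.card ↥(zpowers (g ^ p)) ≤ Nat.card ↥N := Subgroup.card_le_of_le hZN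
  have hlt : Nat.card ↥(zpowers (g ^ p)) < Nat.card ↥N := lt_of_le_of_ne hle hne
  obtain ⟨b, hb⟩ := (IsPGroup.iff_card).1 (hG.to_subgroup (zpowers (g ^ p)))
  obtain ⟨a, ha⟩ := (IsPGroup.iff_card).1 (hG.to_subgroup N)
  obtain ⟨m, hm⟩ := (IsPGroup.iff_card).1 hG
  have hb1 : 1 ≤ b := by
    rcases Nat.eq_zero_or_pos b with h0 | h0
    · exfalso
      rw [h0, pow_zero, Nat.card_zpowers, orderOf_eq_one_iff] at hb
      exact hg hb
    · exact h0
  have hab : b < a := by
    rw [hb, ha] at hlt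
    exact (Nat.pow_lt_pow_iff_right hp1).1 hlt
  have h1 : a + elemRank p (⊥ : Subgroup G) = m := by
    have := N.card_mul_index
    rw [ha, hidx, hm, ← pow_add] at this
    exact Nat.pow_right_injective hp1 this
  have h2 : chainLen (⊥ : Subgroup G) + 1 = m := by
    have := E.card_mul_index
    rw [← pow_chainLen_bot_eq hG hE hEi hg, hEi, hm, ← pow_succ] at this
    exact Nat.pow_right_injective hp1 this
  omega

end Vale.Agent.Lib.P241
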