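import Vale.Agent.Lib.P241.ExpP

/-! # LEAF S7: a chain of `G` from `H` restricts to a chain of the subgroup `K` from `H ∩ K`
Plan. Induction on the chain. `top`: `Subgroup.top_subgroupOf`. `step` (`A ≤ B`, `A` normal in `B`,
`B / A` cyclic): put `A' := A.subgroupOf K`, `B' := B.subgroupOf K` (subgroups of `↥K`), and
`ψ : ↥B' →* ↥B`, `x ↦ ⟨x.1.1, x.2⟩` (membership by `Subgroup.mem_subgroupOf`). Then
`A'.subgroupOf B' = (A.subgroupOf B).comap ψ` (`ext`, `Subgroup.mem_subgroupOf`,
`Subgroup.mem_comap`), which is normal (`Subgroup.Normal.comap`), and the induced map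
`↥B' ⧸ A'.subgroupOf B' →* ↥B ⧸ A.subgroupOf B` (`QuotientGroup.map`) is injective, so the
quotient is cyclic (`isCyclic_of_injective`). Alternatively work with
`(QuotientGroup.mk' (A.subgroupOf B)).comp ψ`, its kernel and `QuotientGroup.kerLift_injective`. -/

namespace Vale.Agent.Lib.P241

open Subgroup

variable {G : Type*} [Group G]

lemma step_subgroupOf {A B : Subgroup G} (hAB : A ≤ B) (hn : (A.subgroupOf B).Normal)
    (hc : IsCyclic (↥B ⧸ A.subgroupOf B)) (K : Subgroup G) :
    ∃ _ : ((A.subgroupOf K).subgroupOf (B.subgroupOf K)).Normal,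
      IsCyclic (↥(B.subgroupOf K) ⧸ (A.subgroupOf K).subgroupOf (B.subgroupOf K)) := by
  let ψ : ↥(B.subgroupOf K) →* ↥B :=
    { toFun := fun x => ⟨x.1.1, Subgroup.mem_subgroupOf.1 x.2⟩
      map_one' := rfl
      map_mul' := fun _ _ => rfl }
  have hcomap : (A.subgroupOf K).subgroupOf (B.subgroupOf K) = (A.subgroupOf B).comap ψ := by
    ext x
    simp only [Subgroup.mem_subgroupOf, Subgroup.mem_comap]
    exact Iff.rfl
  have hn' : ((A.subgroupOf K).subgroupOf (B.subgroupOf K)).Normal := by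
    rw [hcomap]
    exact hn.comap ψ
  refine ⟨hn', ?_⟩
  let φ : ↥(B.subgroupOf K) ⧸ (A.subgroupOf K).subgroupOf (B.subgroupOf K) →*
      ↥B ⧸ A.subgroupOf B :=
    QuotientGroup.map _ _ ψ (le_of_eq hcomap)
  have hφ : Function.Injective φ := by
    rw [injective_iff_map_eq_one]
    intro q hq
    obtain ⟨x, rfl⟩ := QuotientGroup.mk_surjective q
    have h1 : φ (QuotientGroup.mk x) = QuotientGroup.mk (ψ x) := rfl
    rw [h1, QuotientGroup.eq_one_iff] at hq
    rw [QuotientGroup.eq_one_iff, hcomap]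
    exact hq
  exact isCyclic_of_injective φ hφ

lemma chain_subgroupOf {H : Subgroup G} {s : ℕ} (h : CyclicChain H s) (K : Subgroup G) :
    CyclicChain (H.subgroupOf K) s := by
  induction h with
  | top => rw [Subgroup.top_subgroupOf]; exact CyclicChain.top
  | @step A B s hAB hn hc h ih =>
    obtain ⟨hn', hc'⟩ := step_subgroupOf hAB hn hc K
    exact CyclicChain.step (Subgroup.subgroupOf_mono K hAB) hn' hc' ih

end Vale.Agent.Lib.P241
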