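import Vale.Agent.Lib.P241.Sub.WDefs

/-! # LEAF W1: order of `C_p ≀ C_p`
`RegularWreathProduct.card`, `Nat.card_zmod` (through `Multiplicative`: `Nat.card_congr
Multiplicative.toAdd` or `Nat.card_multiplicative`), `IsPGroup.of_card`. -/

namespace Vale.Agent.Lib.P241

open Subgroup RegularWreathProduct

lemma card_Cp (p : ℕ) : Nat.card (Cp p) = p := by
  rw [Nat.card_congr (Multiplicative.toAdd : Cp p ≃ ZMod p), Nat.card_zmod]

lemma card_Wr (p : ℕ) [NeZero p] : Nat.card (Wr p) = p ^ (p + 1) := by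
  have : Finite (Cp p) := Finite.of_equiv (ZMod p) Multiplicative.ofAdd
  rw [RegularWreathProduct.card, card_Cp, pow_succ]

lemma isPGroup_Wr (p : ℕ) [hp : Fact p.Prime] : IsPGroup p (Wr p) := by
  have : NeZero p := ⟨hp.out.ne_zero⟩
  exact IsPGroup.of_card (card_Wr p)

end Vale.Agent.Lib.P241
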