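import Vale.Agent.Lib.P241.Sub.W1

/-! # LEAF W2: the base group has exponent `p` and index `p`
`baseGrp_exp`: for `x` with `x.right = 1` show by induction `(x ^ n).right = 1` and
`(x ^ n).left = x.left ^ n`; every element `c : Cp p` has `c ^ p = 1`
(`Multiplicative`, `ZMod`: `ofAdd`/`toAdd`, `nsmul`, `CharP.cast_eq_zero`).
`baseGrp_index`: `Subgroup.index_ker`, `rightHom` is surjective (`inl`), `card_Cp`. -/

namespace Vale.Agent.Lib.P241

open Subgroup RegularWreathProduct

lemma Cp_pow (p : ℕ) (c : Cp p) : c ^ p = 1 := by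
  apply Multiplicative.toAdd.injective
  rw [toAdd_pow, toAdd_one, nsmul_eq_mul, CharP.cast_eq_zero, zero_mul]

lemma pow_of_right_eq_one (p : ℕ) (x : Wr p) (hx : x.right = 1) (n : ℕ) :
    (x ^ n).right = 1 ∧ (x ^ n).left = x.left ^ n := by
  induction n with
  | zero => simp
  | succ n ih =>
    obtain ⟨h1, h2⟩ := ih
    constructor
    · rw [pow_succ, RegularWreathProduct.mul_right, h1, hx, one_mul]
    · rw [pow_succ, RegularWreathProduct.mul_left, h1, h2, pow_succ]
      congr 1
      funext k
      simp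

lemma baseGrp_exp (p : ℕ) : ∀ x ∈ baseGrp p, x ^ p = 1 := by
  intro x hx
  have hx' : x.right = 1 := by
    have := (MonoidHom.mem_ker).1 hx
    simpa using this
  obtain ⟨h1, h2⟩ := pow_of_right_eq_one p x hx' p
  apply RegularWreathProduct.ext
  · rw [h2, RegularWreathProduct.one_left]
    funext k
    rw [Pi.pow_apply, Cp_pow, Pi.one_apply]
  · rw [h1, RegularWreathProduct.one_right]

lemma baseGrp_index (p : ℕ) : (baseGrp p).index = p := by
  have hs : Function.Surjective (rightHom : Wr p →* Cp p) := fun q => ⟨inl q, by simp⟩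
  unfold baseGrp
  rw [Subgroup.index_ker, MonoidHom.range_eq_top.2 hs, Subgroup.card_top, card_Cp]

end Vale.Agent.Lib.P241
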