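import Vale.Agent.Lib.P241.Sub.W1

/-! # LEAF W3: the `p`-th power of `gW p = (delta, gen)` is the constant function `gen`
By induction on `n`: `(gW p ^ n).right = gen p ^ n` and
`(gW p ^ n).left q = ∏ i ∈ Finset.range n, delta p ((gen p ^ i)⁻¹ * q)`
(use `pow_succ'` or `pow_succ`, whichever matches `RegularWreathProduct.mul_left`).
For `n = p` exactly one `i < p` has `(gen p ^ i)⁻¹ * q = 1` (namely `i = (toAdd q).val`), so the
product is `gen p` (`Finset.prod_eq_single`), and `gen p ^ p = 1`.
`gen p ≠ 1` because `(1 : ZMod p) ≠ 0` for a prime `p`. -/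

namespace Vale.Agent.Lib.P241

open Subgroup RegularWreathProduct

lemma gen_ne_one (p : ℕ) [hp : Fact p.Prime] : gen p ≠ 1 := by
  intro h
  have h1 : Multiplicative.toAdd (gen p) = Multiplicative.toAdd (1 : Cp p) := by rw [h]
  have h2 : (1 : ZMod p) = 0 := h1
  exact one_ne_zero h2

lemma gen_pow (p n : ℕ) : gen p ^ n = Multiplicative.ofAdd (n : ZMod p) := by
  unfold gen
  rw [← ofAdd_nsmul]
  simp

lemma gW_pow_right (p n : ℕ) : (gW p ^ n).right = gen p ^ n := by
  induction n with
  | zero => simp
  | succ n ih =>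
    rw [pow_succ, RegularWreathProduct.mul_right, ih, pow_succ]
    rfl

lemma gW_pow_left (p n : ℕ) (q : Cp p) :
    (gW p ^ n).left q = ∏ i ∈ Finset.range n, delta p ((gen p ^ i)⁻¹ * q) := by
  induction n with
  | zero => simp
  | succ n ih =>
    rw [pow_succ, RegularWreathProduct.mul_left, Finset.prod_range_succ, Pi.mul_apply, ih,
      gW_pow_right]
    rfl

lemma gW_pow_p (p : ℕ) [hp : Fact p.Prime] : gW p ^ p = ⟨fun _ => gen p, 1⟩ := by
  have : NeZero p := ⟨hp.out.ne_zero⟩
  ext q
  · rw [gW_pow_left]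
    show ∏ i ∈ Finset.range p, delta p ((gen p ^ i)⁻¹ * q) = gen p
    have hq : gen p ^ (Multiplicative.toAdd q).val = q := by
      rw [gen_pow, ZMod.natCast_zmod_val]
      rfl
    rw [Finset.prod_eq_single (Multiplicative.toAdd q).val]
    · rw [hq, inv_mul_cancel]
      simp [delta]
    · intro b hb hne
      have hbp : b < p := Finset.mem_range.1 hb
      unfold delta
      rw [if_neg]
      intro h1
      apply hne
      have h2 : q = gen p ^ b := by
        rw [inv_mul_eq_one] at h1
        exact h1.symm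
      rw [h2, gen_pow]
      show b = ((b : ZMod p)).val
      rw [ZMod.val_natCast_of_lt hbp]
    · intro h
      exact absurd (Finset.mem_range.2 (ZMod.val_lt _)) h
  · rw [gW_pow_right, gen_pow]
    simp

lemma gW_pow_p_ne (p : ℕ) [hp : Fact p.Prime] : gW p ^ p ≠ 1 := by
  intro h
  rw [gW_pow_p] at h
  have h1 := congrArg (fun w : Wr p => w.left 1) h
  exact gen_ne_one p h1

end Vale.Agent.Lib.P241
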