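import Vale.Agent.Lib.P241.Sub.S5

/-! # The regular wreath product `C_p ≀ C_p`: definitions for the example -/

namespace Vale.Agent.Lib.P241

open Subgroup RegularWreathProduct

/-- the cyclic group of order `p`, written multiplicatively -/
abbrev Cp (p : ℕ) : Type := Multiplicative (ZMod p)

/-- the regular wreath product `C_p ≀ C_p` -/
abbrev Wr (p : ℕ) : Type := RegularWreathProduct (Cp p) (Cp p)

/-- the generator of `C_p` -/
def gen (p : ℕ) : Cp p := Multiplicative.ofAdd 1

/-- the base group `C_p ^ p` -/
def baseGrp (p : ℕ) : Subgroup (Wr p) := (rightHom : Wr p →* Cp p).ker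

/-- the function with value `gen p` at `1` and `1` elsewhere -/
def delta (p : ℕ) : Cp p → Cp p := fun q => if q = 1 then gen p else 1

/-- an element of order `p ^ 2` -/
def gW (p : ℕ) : Wr p := ⟨delta p, gen p⟩

def xW (p : ℕ) : Wr p := ⟨delta p, 1⟩

def yW (p : ℕ) : Wr p := ⟨1, gen p⟩

end Vale.Agent.Lib.P241
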